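import Vale.Agent.P164.Flow0

/-! Comparison of the Loewner flow with the regularised flow. -/

open Set Metric Filter
open scoped NNReal Topology

namespace Vale.Agent.P164

variable {W : Pth} {z : ℂ} {t : ℝ} {g g' : ℝ → ℂ}

theorem flowC_cont (h : Solves W z t g) : ContinuousOn g (Icc 0 t) :=
  fun s hs => (h.2 s hs).2.continuousWithinAt

theorem flowC_low (h : Solves W z t g) : ∃ c, 0 < c ∧ ∀ s ∈ Icc 0 t, c ≤ ‖g s - (W s : ℂ)‖ := by
  have hc : ContinuousOn (fun s => ‖g s - (W s : ℂ)‖) (Icc 0 t) :=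
    ((flowC_cont h).sub (by fun_prop)).norm
  obtain ⟨c, h1, h2⟩ := isCompact_Icc.exists_forall_le' hc
    fun s hs => norm_pos_iff.2 (sub_ne_zero.2 (h.2 s hs).1)
  exact ⟨c, h1, h2⟩

theorem flowC_right (h : Solves W z t g) {s : ℝ} (hs : s ∈ Ico 0 t) :
    HasDerivWithinAt g (2 / (g s - (W s : ℂ))) (Ici s) s :=
  (h.2 s (Ico_subset_Icc_self hs)).2.mono_of_mem_nhdsWithin (Icc_mem_nhdsGE_of_mem hs)

theorem flowC_uniq (h : Solves W z t g) (h' : Solves W z t g') : EqOn g g' (Icc 0 t) := by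
  obtain ⟨c, hc, h1⟩ := flowC_low h
  obtain ⟨c', hc', h2⟩ := flowC_low h'
  refine ODE_solution_unique_of_mem_Icc_right (v := fun s x => 2 / (x - (W s : ℂ)))
    (s := fun s => {x | min c c' ≤ ‖x - (W s : ℂ)‖}) (K := (2 / min c c' ^ 2).toNNReal)
    (fun s _ => LipschitzOnWith.of_dist_le' fun x hx y hy => ?_) (flowC_cont h)
    (fun s hs => flowC_right h hs)
    (fun s hs => (min_le_left _ _).trans (h1 s (Ico_subset_Icc_self hs))) (flowC_cont h')
    (fun s hs => flowC_right h' hs)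
    (fun s hs => (min_le_right _ _).trans (h2 s (Ico_subset_Icc_self hs))) (h.1.trans h'.1.symm)
  simpa only [dist_eq_norm, sub_sub_sub_cancel_right] using flow0_inv (lt_min hc hc') hx hy

theorem flowC_im (a : ℂ) : (2 / a).im = -(2 * a.im / ‖a‖ ^ 2) := by
  rw [div_eq_mul_inv, Complex.sq_norm]
  simp [Complex.inv_im]
  ring

theorem flowC_re (a : ℂ) : (2 / a).re = 2 * a.re / ‖a‖ ^ 2 := by
  rw [div_eq_mul_inv, Complex.sq_norm]
  simp [Complex.inv_re]
  ring

theorem flowC_dim (h : Solves W z t g) {s : ℝ} (hs : s ∈ Icc 0 t) :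
    HasDerivWithinAt (fun u => (g u).im) (-(2 / ‖g s - (W s : ℂ)‖ ^ 2) * (g s).im) (Icc 0 t) s := by
  have := Complex.imCLM.hasFDerivAt.comp_hasDerivWithinAt s (h.2 s hs).2
  refine HasDerivWithinAt.congr_deriv this ?_
  rw [Complex.imCLM_apply, flowC_im, Complex.sub_im, Complex.ofReal_im]
  ring

theorem flowC_pos (h : Solves W z t g) (hz : 0 < z.im) : ∀ s ∈ Icc 0 t, 0 < (g s).im := by
  obtain ⟨c, hc, h1⟩ := flowC_low h
  have hcont : ContinuousOn (fun u => (g u).im) (Icc 0 t) :=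
    Complex.continuous_im.comp_continuousOn (flowC_cont h)
  have hne : ∀ s ∈ Icc 0 t, (g s).im ≠ 0 := fun s hs h0 => by
    have := ODE_solution_unique_of_mem_Icc_left (a := 0) (b := s)
      (v := fun u y => -(2 / ‖g u - (W u : ℂ)‖ ^ 2) * y) (s := fun _ => univ)
      (K := (2 / c ^ 2).toNNReal) (f := fun u => (g u).im) (g := fun _ => 0)
      (fun u hu => LipschitzOnWith.of_dist_le' fun x _ y _ => by
        have := h1 u ⟨hu.1.le, hu.2.trans hs.2⟩
        rw [Real.dist_eq, Real.dist_eq, ← mul_sub, abs_mul, abs_neg, abs_of_nonneg (by positivity)]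
        gcongr)
      (hcont.mono (Icc_subset_Icc_right hs.2))
      (fun u hu => (flowC_dim h ⟨hu.1.le, hu.2.trans hs.2⟩).mono_of_mem_nhdsWithin
        (Icc_mem_nhdsLE_of_mem ⟨hu.1, hu.2.trans hs.2⟩))
      (fun _ _ => trivial) continuousOn_const
      (fun u _ => by simpa using hasDerivWithinAt_const u _ (0 : ℝ)) (fun _ _ => trivial) h0
      ⟨le_rfl, hs.1⟩
    simp only [h.1] at this
    exact hz.ne' this
  intro s hs
  by_contra h2
  obtain ⟨u, hu, h3⟩ := intermediate_value_Icc' hs.1 (hcont.mono (Icc_subset_Icc_right hs.2))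
    (show (0 : ℝ) ∈ Icc (g s).im (g 0).im from ⟨not_lt.1 h2, by rw [h.1]; exact hz.le⟩)
  exact hne u ⟨hu.1, hu.2.trans hs.2⟩ h3

theorem flowC_anti (h : Solves W z t g) (hz : 0 < z.im) :
    AntitoneOn (fun u => (g u).im) (Icc 0 t) := by
  refine antitoneOn_of_hasDerivWithinAt_nonpos (convex_Icc 0 t)
    (Complex.continuous_im.comp_continuousOn (flowC_cont h))
    (fun s hs => (flowC_dim h (interior_subset hs)).mono interior_subset) fun s hs => ?_
  have := flowC_pos h hz s (interior_subset hs)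
  rw [neg_mul, neg_nonpos]
  positivity

theorem flowC_fanti {δ : ℝ} {φ : ℂ → Pth → ℝ → ℂ} (hδ : 0 < δ) (hφ : IsFlow δ 1 φ) (w : ℂ)
    (W : Pth) : Antitone fun t => (φ w W t).im := by
  refine antitone_of_hasDerivAt_nonpos (fun t =>
    Complex.imCLM.hasFDerivAt.comp_hasDerivAt t (hφ.der w W t)) fun t => ?_
  have := hδ.trans_le (flow0_im δ (φ w W t - (W t : ℂ)))
  simp only [Complex.imCLM_apply, Complex.ofReal_one, one_mul, flowC_im, Pi.zero_apply, neg_nonpos]
  positivity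

theorem flowC_alive (ht : 0 ≤ t) : z ∈ dom W t ↔ 0 < Yf W t z := by
  constructor
  · intro h
    obtain ⟨g, h1, h2⟩ := Zf_spec ht h
    simpa [Yf, h2] using flowC_pos h1 h.1 t ⟨ht, le_rfl⟩
  · intro h
    by_contra h1
    simp [Yf, Zf_dead ht h1] at h

theorem flowC_solves {V W : Pth} (h : EqOn V W (Icc 0 t)) (hg : Solves V z t g) :
    Solves W z t g := ⟨hg.1, fun s hs => by rw [← h hs]; exact hg.2 s hs⟩

theorem flowC (_h0 : Flow0Stmt) : FlowCStmt where
  alive _ _ _ ht := flowC_alive ht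
  anti _ _ hδ hφ := flowC_fanti hδ hφ
  of_flow δ φ hδ hφ w W t ht h := by
    have h1 : ∀ s ∈ Icc 0 t, δ < (φ w W s - (W s : ℂ)).im := fun s hs => by
      simpa using h.trans_le (flowC_fanti hδ hφ w W hs.2)
    have h2 : Solves W w t (φ w W) := ⟨hφ.init w W, fun s hs => ⟨fun h3 => by
      have := h1 s hs
      rw [h3, sub_self] at this
      exact hδ.not_gt this, by
        simpa [flow0_of_le (h1 s hs).le] using (hφ.der w W s).hasDerivWithinAt (s := Icc 0 t)⟩⟩
    have h3 : w ∈ dom W t :=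
      ⟨by simpa [hφ.init] using hδ.trans (h1 0 ⟨le_rfl, ht⟩), _, h2⟩
    obtain ⟨g, h4, h5⟩ := Zf_spec ht h3
    exact ⟨h3, by rw [h5, flowC_uniq h4 h2 ⟨ht, le_rfl⟩]⟩
  to_flow δ φ hδ hφ w W t ht h := by
    have h3 := (flowC_alive ht).2 (hδ.trans h)
    obtain ⟨g, h4, h5⟩ := Zf_spec ht h3
    have h6 : δ < (g t).im := by simpa [Yf, h5] using h
    have h1 : ∀ s ∈ Icc 0 t, δ ≤ (g s - (W s : ℂ)).im := fun s hs => by
      simpa using h6.le.trans (flowC_anti h4 h3.1 hs ⟨ht, le_rfl⟩ hs.2)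
    have := ODE_solution_unique (v := fun s x => ((1 : ℝ) : ℂ) * (2 / reg δ (x - (W s : ℂ))))
      (fun s => flow0_shift (flow0_lip hδ (by simp)) _) (flowC_cont h4)
      (fun s hs => by
        simpa [flow0_of_le (h1 s (Ico_subset_Icc_self hs))] using flowC_right h4 hs)
      (fun s _ => (hφ.der w W s).continuousAt.continuousWithinAt)
      (fun s _ => (hφ.der w W s).hasDerivWithinAt) (h4.1.trans (hφ.init w W).symm) ⟨ht, le_rfl⟩
    rwa [← this]
  loc V W t ht h := by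
    have h1 : dom V t = dom W t := Set.ext fun z =>
      ⟨fun ⟨a, g, hg⟩ => ⟨a, g, flowC_solves h hg⟩,
        fun ⟨a, g, hg⟩ => ⟨a, g, flowC_solves h.symm hg⟩⟩
    refine ⟨h1, fun w => ?_⟩
    by_cases hw : w ∈ dom V t
    · obtain ⟨g, a1, a2⟩ := Zf_spec ht hw
      obtain ⟨g', b1, b2⟩ := Zf_spec ht (h1 ▸ hw)
      rw [a2, b2, flowC_uniq (flowC_solves h a1) b1 ⟨ht, le_rfl⟩, h ⟨ht, le_rfl⟩]
    · rw [Zf_dead ht hw, Zf_dead ht (h1 ▸ hw)]

end Vale.Agent.P164
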