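import Vale.Agent.P164.Basic

/-! Foundation statements for P164 (see PLAN.md). -/

open Set MeasureTheory ProbabilityTheory Metric
open scoped ENNReal NNReal

namespace Vale.Agent.P164

universe u

/-! ### Probability foundation -/

def WienStmt : Prop :=
  ∀ κ : ℝ, 0 < κ → ∀ (Ω : Type u) [MeasurableSpace Ω] (P : Measure Ω) (B : ℝ≥0 → Ω → ℝ),
    IsBrownianReal B P → ∃ μ, Wie κ μ ∧ ∀ p : Pth → Prop, (∀ᵐ W ∂μ, p W) →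
      ∀ᵐ ω ∂P, ∃ W : Pth, (∀ t, W t = √κ * B t.toNNReal ω) ∧ p W

structure CatStmt : Prop where
  meas : ∀ κ μ, Wie κ μ → ∀ s F, Measurable F → Measurable fun V => CE μ s V F
  tower : ∀ κ μ, Wie κ μ → ∀ s t V F, s ≤ t → Measurable F →
    CE μ s V F = CE μ s V fun W => CE μ t W F
  total : ∀ κ μ, Wie κ μ → ∀ s F, 0 ≤ s → Measurable F → ∫⁻ W, F W ∂μ = ∫⁻ V, CE μ s V F ∂μ
  cp : ∀ μ s V E, MeasurableSet E → CP μ s V E = CE μ s V (E.indicator 1)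
  total' : ∀ κ μ, Wie κ μ → ∀ s E, 0 ≤ s → MeasurableSet E → μ E = ∫⁻ V, CP μ s V E ∂μ
  lower : ∀ κ μ, Wie κ μ → ∀ (E : Set Pth) (tt : ℕ → ℝ) (A : ℕ → Set Pth) (p : ℝ≥0∞) (N : ℕ),
    MeasurableSet E → (∀ j, j < N → tt j ≤ tt (j + 1)) →
    (∀ V ∈ A N, ∀ W, cat (tt N) V W ∈ E) →
    (∀ j, j < N → ∀ V ∈ A j, p ≤ CP μ (tt j) V (A (j + 1))) →
    ∀ V ∈ A 0, p ^ N ≤ CP μ (tt 0) V E
  upper : ∀ κ μ, Wie κ μ → ∀ (tt : ℕ → ℝ) (G : ℕ → Set Pth) (p : ℝ≥0∞) (N : ℕ), 0 ≤ tt 0 →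
    (∀ j, j < N → tt j ≤ tt (j + 1)) → (∀ j, j < N → MeasurableSet (G j)) →
    (∀ j, j < N → ∀ V W : Pth, EqOn V W (Icc 0 (tt (j + 1))) → V ∈ G j → W ∈ G j) →
    (∀ j, j < N → ∀ V, p ≤ CP μ (tt j) V (G j)) →
    μ {W | ∀ j, j < N → W ∉ G j} ≤ (1 - p) ^ N
  supAdd : ∀ μ N N', Sup μ N → Sup μ N' → Sup μ fun t W => N t W + N' t W
  supMul : ∀ μ N (c : ℝ≥0∞), Sup μ N → Sup μ fun t W => c * N t W
  stay : ∀ s t x, MeasurableSet (Stay s t x)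

structure MaxStmt : Prop where
  max : ∀ κ μ, 0 < κ → Wie κ μ → ∀ s T x V, 0 ≤ T → 0 < x →
    CP μ s V (Stay s (s + T) x)ᶜ ≤ ENNReal.ofReal (κ * T / x ^ 2)
  steer : ∀ κ μ, 0 < κ → Wie κ μ → ∀ K, 0 < K → ∃ C p : ℝ, 0 < C ∧ 0 < p ∧
    ∀ s y x V, 0 < y → |x| ≤ K * y → ENNReal.ofReal p ≤
      CP μ s V {W | W ∈ Stay s (s + y ^ 2) (C * y) ∧ |W (s + y ^ 2) - W s - x| ≤ y}

/-- Moments of an increment against a bounded functional of the past. -/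
def IncStmt : Prop :=
  ∀ κ μ, 0 < κ → Wie κ μ → ∀ (s u h : ℝ) (V : Pth), 0 ≤ s → s ≤ u → 0 ≤ h →
    (∀ k : ℕ, Integrable (fun W => (cat s V W (u + h) - cat s V W u) ^ k) μ) ∧
    (∫ W, (cat s V W (u + h) - cat s V W u) ^ 2 ∂μ = κ * h) ∧
    (∫ W, (cat s V W (u + h) - cat s V W u) ^ 4 ∂μ ≤ 100 * (κ * h) ^ 2) ∧
    ∀ G : Pth → ℝ, Measurable G → (∃ C, ∀ W, |G W| ≤ C) →
      (∀ W W' : Pth, EqOn W W' (Icc 0 u) → G W = G W') →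
      (∫ W, G (cat s V W) * (cat s V W (u + h) - cat s V W u) ∂μ = 0) ∧
      (∫ W, G (cat s V W) * ((cat s V W (u + h) - cat s V W u) ^ 2 - κ * h) ∂μ = 0)

/-- The one-step remainder in the Ito expansion. -/
noncomputable def ierr (κ : ℝ) {α : Type} (f : Fld α) (a : α) (P : Pth) (u h : ℝ) : ℝ :=
  f.v a P (u + h) (P (u + h)) - f.v a P u (P u)
    - (∫ r in u..(u + h), (f.t a P r (P r) + κ / 2 * f.xx a P r (P r)))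
    - f.x a P u (P u) * (P (u + h) - P u)
    - f.xx a P u (P u) / 2 * ((P (u + h) - P u) ^ 2 - κ * h)

def ItoDetStmt : Prop :=
  ∀ (κ : ℝ), 0 < κ → ∀ (α : Type) [MeasurableSpace α] [Norm α] (f : Fld α), Reg f →
    (∀ a (P : Pth) (T η : ℝ), 0 < η → ∃ h0, 0 < h0 ∧ ∀ u h, 0 ≤ u → u ≤ T → 0 ≤ h → h ≤ h0 →
      |ierr κ f a P u h| ≤ η * (h + (P (u + h) - P u) ^ 2)) ∧
    ∀ n : ℝ, ∃ C, ∀ a (P : Pth) u h, ‖a‖ ≤ n → 0 ≤ u → 0 ≤ h → u + h ≤ n →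
      (∀ r ∈ Icc 0 (u + h), |P r| ≤ n) → |ierr κ f a P u h| ≤ C * (h + (P (u + h) - P u) ^ 2)

def ItoStmt : Prop :=
  ∀ κ μ, 0 < κ → Wie κ μ → ∀ (α : Type) [MeasurableSpace α] [Norm α]
    (v d g : α → Pth → ℝ → ℝ), Sm κ v d g → ∀ a s t V, 0 ≤ s → s ≤ t →
    (∀ W, ∀ u ∈ Icc s t, 0 ≤ v a (cat s V W) u ∧ d a (cat s V W) u ≤ 0) →
    CE μ s V (fun W => ENNReal.ofReal (v a W t)) ≤ ENNReal.ofReal (v a V s)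

/-! ### Calculus of smooth functionals -/

structure SmAlgStmt : Prop where
  congr : ∀ κ (α : Type) [MeasurableSpace α] [Norm α] (v d g v' d' g' : α → Pth → ℝ → ℝ),
    Sm κ v d g → (∀ a W t, 0 ≤ t → v' a W t = v a W t ∧ d' a W t = d a W t ∧ g' a W t = g a W t) →
    Sm κ v' d' g'
  const : ∀ κ (α : Type) [MeasurableSpace α] [Norm α] (c : ℝ),
    Sm κ (fun (_ : α) _ _ => c) (fun _ _ _ => 0) (fun _ _ _ => 0)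
  time : ∀ κ (α : Type) [MeasurableSpace α] [Norm α],
    Sm κ (fun (_ : α) _ t => t) (fun _ _ _ => 1) (fun _ _ _ => 0)
  add : ∀ κ (α : Type) [MeasurableSpace α] [Norm α] (v d g v' d' g' : α → Pth → ℝ → ℝ),
    Sm κ v d g → Sm κ v' d' g' → Sm κ (fun a W t => v a W t + v' a W t)
      (fun a W t => d a W t + d' a W t) (fun a W t => g a W t + g' a W t)
  smul : ∀ κ (α : Type) [MeasurableSpace α] [Norm α] (v d g : α → Pth → ℝ → ℝ) (c : ℝ),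
    Sm κ v d g → Sm κ (fun a W t => c * v a W t) (fun a W t => c * d a W t)
      (fun a W t => c * g a W t)
  mul : ∀ κ (α : Type) [MeasurableSpace α] [Norm α] (v d g v' d' g' : α → Pth → ℝ → ℝ),
    Sm κ v d g → Sm κ v' d' g' → Sm κ (fun a W t => v a W t * v' a W t)
      (fun a W t => v a W t * d' a W t + v' a W t * d a W t + κ * (g a W t * g' a W t))
      (fun a W t => v a W t * g' a W t + v' a W t * g a W t)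
  comp : ∀ κ (α : Type) [MeasurableSpace α] [Norm α] (v d g : α → Pth → ℝ → ℝ)
    (φ φ1 φ2 : ℝ → ℝ), (∀ x, HasDerivAt φ (φ1 x) x) → (∀ x, HasDerivAt φ1 (φ2 x) x) →
    Continuous φ2 → Sm κ v d g → Sm κ (fun a W t => φ (v a W t))
      (fun a W t => φ1 (v a W t) * d a W t + κ / 2 * φ2 (v a W t) * g a W t ^ 2)
      (fun a W t => φ1 (v a W t) * g a W t)
  pull : ∀ κ (α β : Type) [MeasurableSpace α] [Norm α] [MeasurableSpace β] [Norm β]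
    (v d g : α → Pth → ℝ → ℝ) (π : β → α), Measurable π →
    (∀ n : ℝ, ∃ n' : ℝ, ∀ b, ‖b‖ ≤ n → ‖π b‖ ≤ n') → Sm κ v d g →
    Sm κ (fun b => v (π b)) (fun b => d (π b)) (fun b => g (π b))

/-- What a value, drift or gradient of a smooth functional satisfies. -/
structure Tame {α : Type} [MeasurableSpace α] [Norm α] (v : α → Pth → ℝ → ℝ) : Prop where
  meas : Measurable fun p : α × Pth × ℝ => v p.1 p.2.1 (max p.2.2 0)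
  meas' : ∀ t, 0 ≤ t → Measurable fun p : α × Pth => v p.1 p.2 t
  cont : ∀ a W, ContinuousOn (v a W) (Ici 0)
  bdd : ∀ (W : Pth) (n : ℝ), ∃ C, ∀ a t, ‖a‖ ≤ n → t ∈ Icc 0 n → |v a W t| ≤ C

structure SmIntStmt : Prop where
  tame : ∀ κ (α : Type) [MeasurableSpace α] [Norm α] (v d g : α → Pth → ℝ → ℝ),
    Sm κ v d g → Tame v ∧ Tame d ∧ Tame g
  loc : ∀ κ (α : Type) [MeasurableSpace α] [Norm α] (v d g : α → Pth → ℝ → ℝ),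
    Sm κ v d g → ∀ a (V W : Pth) t, 0 ≤ t → EqOn V W (Icc 0 t) → v a V t = v a W t
  intg : ∀ (v : ℂ → Pth → ℝ → ℝ), Tame v → ∀ (ν : Measure ℂ) [IsFiniteMeasure ν] (R : ℝ),
    (∀ᵐ w ∂ν, ‖w‖ ≤ R) → ∀ W t, 0 ≤ t → Integrable (fun w => v w W t) ν
  intg2 : ∀ (α : Type) [MeasurableSpace α] [Norm α] (v : α × ℂ → Pth → ℝ → ℝ), Tame v →
    ∀ (ν : Measure ℂ) [IsFiniteMeasure ν] (R : ℝ),
    (∀ᵐ w ∂ν, ‖w‖ ≤ R) → ∀ a W t, 0 ≤ t → Integrable (fun w => v (a, w) W t) ν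
  int : ∀ κ (α : Type) [MeasurableSpace α] [Norm α] (v d g : α × ℂ → Pth → ℝ → ℝ)
    (ν : Measure ℂ) [IsFiniteMeasure ν] (R : ℝ), (∀ᵐ w ∂ν, ‖w‖ ≤ R) → Sm κ v d g →
    Sm κ (fun a W t => ∫ w, v (a, w) W t ∂ν) (fun a W t => ∫ w, d (a, w) W t ∂ν)
      (fun a W t => ∫ w, g (a, w) W t ∂ν)
  int0 : ∀ κ (v d g : ℂ → Pth → ℝ → ℝ) (ν : Measure ℂ) [IsFiniteMeasure ν] (R : ℝ),
    (∀ᵐ w ∂ν, ‖w‖ ≤ R) → Sm κ v d g →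
    Sm κ (fun (_ : Unit) W t => ∫ w, v w W t ∂ν) (fun _ W t => ∫ w, d w W t ∂ν)
      (fun _ W t => ∫ w, g w W t ∂ν)
  tint : ∀ κ (α : Type) [MeasurableSpace α] [Norm α] (v d g : α → Pth → ℝ → ℝ),
    Sm κ v d g → Sm κ (fun a W t => ∫ u in (0 : ℝ)..t, v a W u) v (fun _ _ _ => 0)

/-! ### The Loewner flow -/

def Flow0Stmt : Prop := ∀ δ σ : ℝ, 0 < δ → |σ| ≤ 1 → ∃ φ, IsFlow δ σ φ

structure FlowCStmt : Prop where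
  alive : ∀ (W : Pth) t w, 0 ≤ t → (w ∈ dom W t ↔ 0 < Yf W t w)
  anti : ∀ δ φ, 0 < δ → IsFlow δ 1 φ → ∀ w W, Antitone fun t => (φ w W t).im
  of_flow : ∀ δ φ, 0 < δ → IsFlow δ 1 φ → ∀ w (W : Pth) t, 0 ≤ t → δ < (φ w W t).im →
    w ∈ dom W t ∧ Zf W t w = φ w W t - (W t : ℂ)
  to_flow : ∀ δ φ, 0 < δ → IsFlow δ 1 φ → ∀ w (W : Pth) t, 0 ≤ t → δ < Yf W t w →
    δ < (φ w W t).im
  loc : ∀ (V W : Pth) t, 0 ≤ t → EqOn V W (Icc 0 t) →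
    dom V t = dom W t ∧ ∀ w, Zf V t w = Zf W t w

structure FlowAStmt : Prop where
  alive : ∀ (W : Pth) t w, 0 ≤ t → (w ∈ dom W t ↔ 0 < Yf W t w)
  Y_nonneg : ∀ W t w, 0 ≤ Yf W t w
  init : ∀ (W : Pth) (w : ℂ), 0 < w.im →
    w ∈ dom W 0 ∧ Zf W 0 w = w - (W 0 : ℂ) ∧ Up W 0 w = w.im ∧ gd W 0 w = 1
  dom_anti : ∀ (W : Pth) s t, 0 ≤ s → s ≤ t → dom W t ⊆ dom W s
  Y_anti : ∀ W w, Antitone fun t => Yf W t w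
  Up_anti : ∀ W w, Antitone fun t => Up W t w
  Up_strict : ∀ (W : Pth) w s t, 0 ≤ s → s < t → w ∈ dom W t → Up W t w < Up W s w
  Y_cont : ∀ W w, Continuous fun t => Yf W t w
  cont : ∀ (W : Pth) t w, 0 ≤ t → w ∈ dom W t → ContinuousAt (fun u => Zf W u w) t ∧
    ContinuousAt (fun u => Up W u w) t ∧ ContinuousAt (fun u => gd W u w) t
  der : ∀ (W : Pth) t w, 0 < t → w ∈ dom W t →
    HasDerivAt (fun u => Zf W u w + (W u : ℂ)) (2 / Zf W t w) t ∧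
    HasDerivAt (fun u => Xf W u w + W u) (2 * Xf W t w / Rf W t w ^ 2) t ∧
    HasDerivAt (fun u => Yf W u w) (-(2 * Yf W t w / Rf W t w ^ 2)) t ∧
    HasDerivAt (fun u => Up W u w) (-(Up W t w * (4 * Sf W t w ^ 2 / Rf W t w ^ 2))) t ∧
    HasDerivAt (fun u => gd W u w) (-(2 / Zf W t w ^ 2) * gd W t w) t
  loc : ∀ (V W : Pth) t, EqOn V W (Icc 0 t) → ∀ u ∈ Icc 0 t, dom V u = dom W u ∧
    ∀ w, Zf V u w = Zf W u w ∧ Up V u w = Up W u w ∧ gd V u w = gd W u w ∧ fi V u w = fi W u w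
  Y_sq : ∀ W w s t, 0 ≤ s → s ≤ t → Yf W s w ^ 2 ≤ Yf W t w ^ 2 + 4 * (t - s)
  Up_ge : ∀ (W : Pth) w s t, 0 ≤ s → s ≤ t → w ∈ dom W t →
    Up W s w * Real.exp (-(4 * (t - s) / Yf W t w ^ 2)) ≤ Up W t w
  move : ∀ (W : Pth) w s t, 0 ≤ s → s ≤ t → w ∈ dom W t →
    ‖Zf W t w + (W t : ℂ) - (Zf W s w + (W s : ℂ))‖ ≤ 2 * (t - s) / Yf W t w

structure FlowMStmt : Prop where
  Z_meas : Measurable fun p : ℂ × Pth × ℝ => Zf p.2.1 p.2.2 p.1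
  Up_meas : Measurable fun p : ℂ × Pth × ℝ => Up p.2.1 p.2.2 p.1
  X_meas : Measurable fun p : ℂ × Pth × ℝ => Xf p.2.1 p.2.2 p.1
  Y_meas : Measurable fun p : ℂ × Pth × ℝ => Yf p.2.1 p.2.2 p.1
  R_meas : Measurable fun p : ℂ × Pth × ℝ => Rf p.2.1 p.2.2 p.1
  S_meas : Measurable fun p : ℂ × Pth × ℝ => Sf p.2.1 p.2.2 p.1
  dom_open : ∀ (W : Pth) t, 0 ≤ t → IsOpen (dom W t)
  Z_cont : ∀ (W : Pth) t, 0 ≤ t → ContinuousOn (Zf W t) (dom W t)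

structure ConfAStmt : Prop where
  inj : ∀ (W : Pth) t, 0 ≤ t → InjOn (Zf W t) (dom W t)
  der : ∀ (W : Pth) t w, 0 ≤ t → w ∈ dom W t → HasDerivAt (Zf W t) (gd W t w) w
  norm : ∀ (W : Pth) t w, 0 ≤ t → w ∈ dom W t → ‖gd W t w‖ = Yf W t w / Up W t w

def SurjStmt : Prop :=
  ∀ (W : Pth) t (ζ : ℂ), 0 ≤ t → 0 < ζ.im → ∃ w, w ∈ dom W t ∧ Zf W t w = ζ

structure ConfBStmt : Prop where
  right : ∀ (W : Pth) t (ζ : ℂ), 0 ≤ t → 0 < ζ.im →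
    fi W t ζ ∈ dom W t ∧ Zf W t (fi W t ζ) = ζ
  left : ∀ (W : Pth) t w, 0 ≤ t → w ∈ dom W t → fi W t (Zf W t w) = w
  der : ∀ (W : Pth) t (ζ : ℂ), 0 ≤ t → 0 < ζ.im → HasDerivAt (fi W t) (fd W t ζ) ζ
  norm : ∀ (W : Pth) t (ζ : ℂ), 0 ≤ t → 0 < ζ.im → ‖fd W t ζ‖ = Up W t (fi W t ζ) / ζ.im
  cov : ∀ (W : Pth) t (ψ : ℂ → ℝ≥0∞), 0 ≤ t → ∫⁻ w in dom W t, ψ w =
    ∫⁻ ζ in HP, ENNReal.ofReal ((Up W t (fi W t ζ) / ζ.im) ^ 2) * ψ (fi W t ζ)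
  cov' : ∀ (W : Pth) t (φ : ℂ → ℝ≥0∞), 0 ≤ t →
    ∫⁻ w in dom W t, ENNReal.ofReal ((Yf W t w / Up W t w) ^ 2) * φ (Zf W t w) = ∫⁻ ζ in HP, φ ζ

def DistStmt : Prop :=
  ∀ (W : Pth) t (ζ : ℂ), 0 ≤ t → 0 < ζ.im →
    ∃ D : ℂ, HasDerivAt (fd W t) D ζ ∧ ‖D‖ ≤ 3 * ‖fd W t ζ‖ / ζ.im

structure KoebeStmt : Prop where
  ratio : ∀ (W : Pth) t (ζ ζ' : ℂ) (y : ℝ), 0 ≤ t → 0 < y → y ≤ ζ.im → y ≤ ζ'.im →
    Up W t (fi W t ζ') ≤ Up W t (fi W t ζ) * Real.exp (4 * ‖ζ' - ζ‖ / y)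
  disp : ∀ (W : Pth) t (ζ ζ' : ℂ) (y : ℝ), 0 ≤ t → 0 < y → y ≤ ζ.im → y ≤ ζ'.im →
    ‖fi W t ζ' - fi W t ζ‖ ≤ Up W t (fi W t ζ) * (‖ζ' - ζ‖ / y) * Real.exp (4 * ‖ζ' - ζ‖ / y)
  vert : ∀ (W : Pth) t (x y y' c : ℝ), 0 ≤ t → 0 < y → y ≤ y' →
    (∀ v ∈ Icc y y', Up W t (fi W t ⟨x, v⟩) ≤ c) →
    ‖fi W t ⟨x, y'⟩ - fi W t ⟨x, y⟩‖ ≤ c * Real.log (y' / y)
  cont : ∀ (W : Pth) t, 0 ≤ t → ContinuousOn (fun ζ => Up W t (fi W t ζ)) HP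
  ball : ∀ (W : Pth) t w w', 0 ≤ t → w ∈ dom W t → ‖w' - w‖ < Up W t w / 40 →
    w' ∈ dom W t ∧ ‖Zf W t w' - Zf W t w‖ ≤ Yf W t w / 8 ∧
      Up W t w / 2 ≤ Up W t w' ∧ Up W t w' ≤ 2 * Up W t w

structure SchwarzStmt : Prop where
  schwarz : ∀ (W : Pth) t w ρ, 0 ≤ t → w ∈ dom W t → ball w ρ ⊆ dom W t → ρ ≤ 2 * Up W t w
  grow : ∀ (W : Pth) s t, 0 ≤ s → s < t → dom W t ≠ dom W s

/-! ### One-point calculus -/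

structure BaseStmt : Prop where
  one : ∀ κ, LS κ (fun _ _ _ => 1) (fun _ _ _ => 0) (fun _ _ _ => 0)
  X : ∀ κ, LS κ (fun w W t => Xf W t w) (fun w W t => 2 * Xf W t w / Rf W t w ^ 2)
    (fun _ _ _ => -1)
  Y : ∀ κ, LS κ (fun w W t => Yf W t w) (fun w W t => -(2 * Yf W t w / Rf W t w ^ 2))
    (fun _ _ _ => 0)
  logUp : ∀ κ, LS κ (fun w W t => Real.log (Up W t w))
    (fun w W t => -(4 * Sf W t w ^ 2 / Rf W t w ^ 2)) (fun _ _ _ => 0)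

structure LSAlgStmt : Prop where
  congr : ∀ κ (v d g v' d' g' : ℂ → Pth → ℝ → ℝ), LS κ v d g →
    (∀ w W t, 0 ≤ t → 0 < Yf W t w →
      v' w W t = v w W t ∧ d' w W t = d w W t ∧ g' w W t = g w W t) → LS κ v' d' g'
  const : ∀ κ (c : ℝ), LS κ (fun _ _ _ => c) (fun _ _ _ => 0) (fun _ _ _ => 0)
  ofSm : ∀ κ (v d g : ℂ → Pth → ℝ → ℝ), Sm κ v d g → LS κ v d g
  time : ∀ κ, LS κ (fun _ _ t => t) (fun _ _ _ => 1) (fun _ _ _ => 0)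
  add : ∀ κ (v d g v' d' g' : ℂ → Pth → ℝ → ℝ), LS κ v d g → LS κ v' d' g' →
    LS κ (fun w W t => v w W t + v' w W t) (fun w W t => d w W t + d' w W t)
      (fun w W t => g w W t + g' w W t)
  smul : ∀ κ (v d g : ℂ → Pth → ℝ → ℝ) (c : ℝ), LS κ v d g →
    LS κ (fun w W t => c * v w W t) (fun w W t => c * d w W t) (fun w W t => c * g w W t)
  mul : ∀ κ (v d g v' d' g' : ℂ → Pth → ℝ → ℝ), LS κ v d g → LS κ v' d' g' →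
    LS κ (fun w W t => v w W t * v' w W t)
      (fun w W t => v w W t * d' w W t + v' w W t * d w W t + κ * (g w W t * g' w W t))
      (fun w W t => v w W t * g' w W t + v' w W t * g w W t)
  comp : ∀ κ (v d g : ℂ → Pth → ℝ → ℝ) (φ φ1 φ2 : ℝ → ℝ), (∀ x, HasDerivAt φ (φ1 x) x) →
    (∀ x, HasDerivAt φ1 (φ2 x) x) → Continuous φ2 → LS κ v d g →
    LS κ (fun w W t => φ (v w W t))
      (fun w W t => φ1 (v w W t) * d w W t + κ / 2 * φ2 (v w W t) * g w W t ^ 2)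
      (fun w W t => φ1 (v w W t) * g w W t)
  log : ∀ κ (v d g : ℂ → Pth → ℝ → ℝ), LS κ v d g →
    (∀ δ, 0 < δ → ∃ c, 0 < c ∧ ∀ w W t, 0 ≤ t → δ ≤ Yf W t w → c ≤ v w W t) →
    LS κ (fun w W t => Real.log (v w W t))
      (fun w W t => d w W t / v w W t - κ / 2 * (g w W t / v w W t) ^ 2)
      (fun w W t => g w W t / v w W t)

/-- Nonnegative one-point functionals with nonpositive drift are supermartingales. -/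
def LSupStmt : Prop :=
  ∀ κ μ, 0 < κ → Wie κ μ → ∀ (v d g : ℂ → Pth → ℝ → ℝ), LS κ v d g → ∀ w δ, 0 < δ →
    (∀ W t, 0 ≤ t → 0 < Yf W t w → 0 ≤ v w W t ∧ d w W t ≤ 0) →
    Sup μ fun t W => ENNReal.ofReal (cy δ w W t * v w W t)

structure MonStmt : Prop where
  mon : ∀ κ a b q, 0 < κ → LS κ (Mon a b q)
    (fun w W t => Mon a b q w W t *
      ((cX κ a q * (1 - Sf W t w ^ 2) + cY κ a b q * Sf W t w ^ 2) / Rf W t w ^ 2))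
    (fun w W t => Mon a b q w W t * (q * Xf W t w / Rf W t w ^ 2))
  cutUp : ∀ κ ε, 0 < κ → 0 < ε → LS κ (fun w W t => cut (Up W t w / ε))
    (fun w W t => -(cut1 (Up W t w / ε) * (Up W t w / ε) * (4 * Sf W t w ^ 2 / Rf W t w ^ 2)))
    (fun _ _ _ => 0)
  cutM : ∀ κ ε, 0 < κ → 0 < ε → LS κ (fun w W t => cut (Up W t w / ε) * MM κ w W t)
    (fun w W t => -crf κ ε w W t)
    (fun w W t => cut (Up W t w / ε) * MM κ w W t * (rr κ * Xf W t w / Rf W t w ^ 2))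
  rate : ∀ κ s0 ε, 0 < κ → ∃ d g, LS κ (cr κ s0 ε) d g

/-! ### Elementary integrals, gauge, covering -/

structure IntStmt : Prop where
  small : ∀ γ : ℝ, 0 < γ → ∃ C : ℝ, 0 < C ∧ ∀ R : ℝ, 0 < R →
    ∫⁻ ζ in ball (0 : ℂ) R, ENNReal.ofReal (‖ζ‖ ^ (γ - 2)) ≤ ENNReal.ofReal (C * R ^ γ)
  large : ∃ C : ℝ, 0 < C ∧ ∀ R : ℝ, 0 < R →
    ∫⁻ ζ in {ζ : ℂ | R ≤ ‖ζ‖}, ENNReal.ofReal (1 / ‖ζ‖ ^ 3) ≤ ENNReal.ofReal (C / R)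
  tent : ∀ α x H : ℝ, 0 < α → 0 < H →
    ∫⁻ ζ in {ζ : ℂ | 0 < ζ.im ∧ ζ.im ≤ H ∧ |ζ.re - x| ≤ 2 * ζ.im},
      ENNReal.ofReal ((ζ.im / H) ^ α / ζ.im ^ 2) ≤ ENNReal.ofReal (4 / α)
  expo : ∀ c : ℝ, 0 < c → ∃ C : ℝ, 0 < C ∧ ∀ (ℓ : ℝ) (w0 : ℂ), 0 < ℓ →
    ∫⁻ w : ℂ, ENNReal.ofReal (Real.exp (-(c * ‖w - w0‖ / ℓ))) ≤ ENNReal.ofReal (C * ℓ ^ 2)
  strip : ∀ a R ρ : ℝ, 0 ≤ a → a < 1 → 0 < R → 0 < ρ →
    ∫⁻ w in {w : ℂ | ‖w‖ < R ∧ 0 < w.im ∧ w.im < ρ}, ENNReal.ofReal (w.im ^ (-a)) ≤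
      ENNReal.ofReal (2 * R * ρ ^ (1 - a) / (1 - a))
  strip0 : ∀ R ρ : ℝ, 0 < R → 0 < ρ →
    volume {w : ℂ | ‖w‖ < R ∧ |w.im| ≤ ρ} ≤ ENNReal.ofReal (4 * R * ρ)

structure GaugeStmt : Prop where
  isGauge : ∀ κ, 0 < κ → κ < 8 → IsGauge (gauge κ)
  LL_eq : ∀ r, r ≤ 1 / 16 → LL r = Real.log (Real.log (1 / r))
  one_le : ∀ r, 0 < r → 1 ≤ LL r
  anti : AntitoneOn LL (Ioi 0)
  scale : ∀ κ A r, 0 < κ → κ < 8 → 1 ≤ A → 0 ≤ r → gauge κ (A * r) ≤ A ^ dd κ * gauge κ r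

structure CoverStmt : Prop where
  mono : ∀ h E E', E ⊆ E' → hausd h E ≤ hausd h E'
  of_hc : ∀ h E (x : ℝ≥0∞), (∀ δ, 0 < δ → ∃ δ', δ' ≤ δ ∧ hc h δ' E ≤ x) → hausd h E ≤ x
  vitali : ∀ κ, 0 < κ → κ < 8 → ∃ C : ℝ, 0 < C ∧ ∀ (ν : Measure ℂ) (E : Set ℂ) (R δ : ℝ),
    E ⊆ ball 0 R →
    (∀ z ∈ E, ∃ r, 0 < r ∧ r ≤ δ ∧ ENNReal.ofReal (gauge κ r) ≤ ν (ball z r)) →
    hc (gauge κ) (10 * δ) E ≤ ENNReal.ofReal C * ν (ball 0 (R + δ))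

def MassStmt : Prop :=
  ∀ κ, 0 < κ → κ < 8 → ∀ (Γ : Set ℂ) (c C r0 : ℝ), IsCompact Γ → 0 < c → 0 < C → 0 < r0 →
    (∀ η, 0 < η → ∃ (ν : Measure ℂ) (G : Set ℂ), G ⊆ thickening η Γ ∧ ENNReal.ofReal c ≤ ν G ∧
      ∀ z ∈ G, ∀ r, 0 < r → r ≤ r0 → ν (ball z r) ≤ ENNReal.ofReal (C * gauge κ r)) →
    0 < hausd (gauge κ) Γ

def CurveStmt : Prop :=
  ∀ (W : Pth) (γ : ℝ → ℂ), Generates W γ →
    (∀ b, 0 ≤ b → γ '' Icc 0 b ⊆ Tr W b) ∧ ∀ s t, 0 ≤ s → s ≤ t → Fr W s t ⊆ γ '' Icc s t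

def HitDPStmt : Prop :=
  ∀ κ μ, Wie κ μ → ∀ (N : ℝ → Pth → ℝ≥0∞) (F : Pth → ℝ≥0∞) (z : ℂ) (ρ δ a b : ℝ) (V0 : Pth),
    Sup μ N → Measurable F → 0 < ρ → 0 < δ → 0 ≤ a → a ≤ b →
    (∀ t ∈ Icc a b, ∀ V : Pth, EqOn V V0 (Icc 0 a) → ρ / 2 ≤ Up V t z →
      (Up V t z ≤ ρ ∨ Yf V t z ≤ δ ∨ t = b) → CE μ t V F ≤ N t V) →
    ρ / 2 ≤ Up V0 a z → CE μ a V0 F ≤ N a V0

end Vale.Agent.P164
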