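import Mathlib

/-! Definitions used in the statement for P164. -/

open Set
open scoped ENNReal

namespace Vale.Agent.P164

/-- `g` solves the chordal Loewner equation driven by `U`, started at `z`, on `[0,t]`. -/
def Solves (U : ℝ → ℝ) (z : ℂ) (t : ℝ) (g : ℝ → ℂ) : Prop :=
  g 0 = z ∧ ∀ s ∈ Icc (0 : ℝ) t,
    g s ≠ (U s : ℂ) ∧ HasDerivWithinAt g (2 / (g s - (U s : ℂ))) (Icc 0 t) s

/-- The points of the upper half-plane whose Loewner flow is alive at time `t`. -/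
def dom (U : ℝ → ℝ) (t : ℝ) : Set ℂ :=
  {z | 0 < z.im ∧ ∃ g : ℝ → ℂ, Solves U z t g}

/-- The upper half-plane minus the curve up to time `t`. -/
def slit (γ : ℝ → ℂ) (t : ℝ) : Set ℂ :=
  {z : ℂ | 0 < z.im} \ γ '' Icc 0 t

/-- The unbounded component of the upper half-plane minus the curve up to time `t`. -/
def unbd (γ : ℝ → ℂ) (t : ℝ) : Set ℂ :=
  {z | z ∈ slit γ t ∧ ¬ Bornology.IsBounded (connectedComponentIn (slit γ t) z)}

/-- The continuous curve `γ` from `0` in the closed half-plane generates the chain driven by `U`. -/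
def Generates (U : ℝ → ℝ) (γ : ℝ → ℂ) : Prop :=
  ContinuousOn γ (Ici 0) ∧ γ 0 = 0 ∧ (∀ t, 0 ≤ t → 0 ≤ (γ t).im) ∧
    ∀ t, 0 ≤ t → dom U t = unbd γ t

/-- Hausdorff measure with gauge `h`. -/
noncomputable def hausd (h : ℝ → ℝ) (E : Set ℂ) : ℝ≥0∞ :=
  ⨆ (δ : ℝ) (_ : 0 < δ), ⨅ (U : ℕ → Set ℂ) (_ : E ⊆ ⋃ j, U j)
    (_ : ∀ j, Metric.ediam (U j) ≤ ENNReal.ofReal δ),
      ∑' j, ENNReal.ofReal (h (Metric.diam (U j)))

/-- A gauge function. -/
def IsGauge (h : ℝ → ℝ) : Prop :=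
  ContinuousOn h (Ici 0) ∧ MonotoneOn h (Ici 0) ∧ h 0 = 0 ∧ ∀ r, 0 < r → 0 < h r

/-- The gauge `r ^ d * (log log (1 / r)) ^ ((2 - d) / 2)`, `d = 1 + κ / 8`, with the iterated
logarithm frozen for `r ≥ 1 / 16`. -/
noncomputable def gauge (κ r : ℝ) : ℝ :=
  r ^ (1 + κ / 8) * Real.log (Real.log (1 / min r (1 / 16))) ^ ((2 - (1 + κ / 8)) / 2)

end Vale.Agent.P164
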