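import Vale.Agent.P164.Stm

/-! Existence and joint continuity of the regularised Loewner flow. -/

open Set Metric Filter
open scoped NNReal Topology

namespace Vale.Agent.P164

theorem flow0_im (δ : ℝ) (z : ℂ) : δ ≤ (reg δ z).im := le_max_right _ _

theorem flow0_norm (δ : ℝ) (z : ℂ) : δ ≤ ‖reg δ z‖ :=
  (flow0_im δ z).trans ((le_abs_self _).trans (Complex.abs_im_le_norm _))

theorem flow0_of_le {δ : ℝ} {z : ℂ} (h : δ ≤ z.im) : reg δ z = z :=
  Complex.ext rfl (max_eq_left h)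

theorem flow0_reg_sub (δ : ℝ) (z z' : ℂ) : ‖reg δ z - reg δ z'‖ ≤ ‖z - z'‖ := by
  refine (sq_le_sq₀ (norm_nonneg _) (norm_nonneg _)).1 ?_
  have h := sq_le_sq.2 (abs_max_sub_max_le_abs z.im z'.im δ)
  simp only [Complex.sq_norm, Complex.normSq_apply, reg, Complex.sub_re, Complex.sub_im]
  nlinarith

theorem flow0_bdd {δ σ : ℝ} (hδ : 0 < δ) (hσ : |σ| ≤ 1) (z : ℂ) :
    ‖(σ : ℂ) * (2 / reg δ z)‖ ≤ 2 / δ := by
  rw [norm_mul, norm_div, Complex.norm_real, Real.norm_eq_abs, Complex.norm_two]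
  exact (mul_le_of_le_one_left (by positivity) hσ).trans
    (div_le_div_of_nonneg_left zero_le_two hδ (flow0_norm δ z))

theorem flow0_inv {c : ℝ} (hc : 0 < c) {a b : ℂ} (ha : c ≤ ‖a‖) (hb : c ≤ ‖b‖) :
    ‖2 / a - 2 / b‖ ≤ 2 / c ^ 2 * ‖a - b‖ := by
  have a0 : a ≠ 0 := norm_pos_iff.1 (hc.trans_le ha)
  have b0 : b ≠ 0 := norm_pos_iff.1 (hc.trans_le hb)
  rw [show 2 / a - 2 / b = 2 / (a * b) * (b - a) by field_simp, norm_mul, norm_div, norm_mul,
    Complex.norm_two, norm_sub_rev, sq]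
  gcongr

theorem flow0_lip {δ σ : ℝ} (hδ : 0 < δ) (hσ : |σ| ≤ 1) :
    LipschitzWith (2 / δ ^ 2).toNNReal fun z => (σ : ℂ) * (2 / reg δ z) := by
  refine LipschitzWith.of_dist_le' fun z z' => ?_
  rw [dist_eq_norm, dist_eq_norm, ← mul_sub, norm_mul, Complex.norm_real, Real.norm_eq_abs]
  refine (mul_le_of_le_one_left (norm_nonneg _) hσ).trans
    ((flow0_inv hδ (flow0_norm δ z) (flow0_norm δ z')).trans ?_)
  exact mul_le_mul_of_nonneg_left (flow0_reg_sub δ z z') (by positivity)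

theorem flow0_shift {F : ℂ → ℂ} {K : ℝ≥0} (hF : LipschitzWith K F) (u : ℂ) :
    LipschitzWith K fun z => F (z - u) :=
  LipschitzWith.of_dist_le_mul fun z z' => by simpa using hF.dist_le_mul (z - u) (z' - u)

/-- global solutions -/
theorem flow0_glob {F : ℂ → ℂ} {K : ℝ≥0} {L : ℝ≥0} (hF : LipschitzWith K F)
    (hL : ∀ z, ‖F z‖ ≤ L) {U : ℝ → ℂ} (hU : Continuous U) (w : ℂ) :
    ∃ g : ℝ → ℂ, g 0 = w ∧ ∀ t, HasDerivAt g (F (g t - U t)) t := by
  have h1 : ∀ n : ℕ, ∃ α : ℝ → ℂ, α 0 = w ∧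
      ∀ t ∈ Ioo (-(n + 1) : ℝ) (n + 1), HasDerivAt α (F (α t - U t)) t := fun n => by
    have hn : (0 : ℝ) ≤ n + 1 := by positivity
    have hp : IsPicardLindelof (fun t z => F (z - U t)) (tmin := -(n + 1)) (tmax := n + 1)
        ⟨0, by linarith, hn⟩ w (L * (n + 1)) 0 L K :=
      ⟨fun t _ => (flow0_shift hF _).lipschitzOnWith,
        fun x _ => (hF.continuous.comp (continuous_const.sub hU)).continuousOn,
        fun t _ x _ => hL _, by simp⟩
    obtain ⟨α, h0, hα⟩ := hp.exists_eq_forall_mem_Icc_hasDerivWithinAt₀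
    exact ⟨α, h0, fun t ht => (hα t (Ioo_subset_Icc_self ht)).hasDerivAt (Icc_mem_nhds ht.1 ht.2)⟩
  choose α h0 hα using h1
  have h2 : ∀ n m : ℕ, n ≤ m → EqOn (α n) (α m) (Ioo (-(n + 1) : ℝ) (n + 1)) := fun n m hnm => by
    have : (n : ℝ) ≤ m := by exact_mod_cast hnm
    have hn : (0 : ℝ) < n + 1 := by positivity
    exact ODE_solution_unique_of_mem_Ioo (v := fun t z => F (z - U t)) (s := fun _ => univ)
      (t₀ := 0) (fun t _ => (flow0_shift hF _).lipschitzOnWith) ⟨by linarith, hn⟩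
      (fun t ht => ⟨hα n t ht, trivial⟩)
      (fun t ht => ⟨hα m t ⟨by linarith [ht.1], by linarith [ht.2]⟩, trivial⟩)
      ((h0 n).trans (h0 m).symm)
  refine ⟨fun t => α ⌈|t|⌉₊ t, h0 _, fun t => ?_⟩
  have h3 : ∀ s : ℝ, s ∈ Ioo (-(⌈|s|⌉₊ + 1) : ℝ) (⌈|s|⌉₊ + 1) := fun s =>
    abs_lt.1 ((Nat.le_ceil _).trans_lt (lt_add_one _))
  have h4 : ∀ᶠ s in 𝓝 t, α ⌈|s|⌉₊ s = α (⌈|t|⌉₊ + 1) s := by
    filter_upwards [continuous_abs.continuousAt.eventually_lt continuousAt_const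
      (lt_add_one |t|)] with s hs
    refine h2 _ _ (Nat.ceil_le.2 ?_) (h3 s)
    push_cast
    linarith [Nat.le_ceil |t|]
  have h5 := hα (⌈|t|⌉₊ + 1) t (by
    have := h3 t
    push_cast
    exact ⟨by linarith [this.1], by linarith [this.2]⟩)
  rw [← h4.self_of_nhds] at h5
  exact h5.congr_of_eventuallyEq h4

theorem flow0_est {F : ℂ → ℂ} {K : ℝ≥0} (hK : 0 < (K : ℝ)) (hF : LipschitzWith K F)
    {U U' g g' : ℝ → ℂ} (hg : ∀ t, HasDerivAt g (F (g t - U t)) t)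
    (hg' : ∀ t, HasDerivAt g' (F (g' t - U' t)) t) {T ε : ℝ} (hT : 0 ≤ T)
    (h : ∀ s ∈ Icc 0 T, ‖U s - U' s‖ ≤ ε) :
    ‖g T - g' T‖ ≤ (‖g 0 - g' 0‖ + ε) * Real.exp (K * T) := by
  have hε : 0 ≤ ε := (norm_nonneg _).trans (h 0 ⟨le_rfl, hT⟩)
  have h1 := norm_le_gronwallBound_of_norm_deriv_right_le (f := fun t => g t - g' t) (a := 0)
    (b := T) (K := K) (ε := K * ε)
    (fun t _ => ((hg t).sub (hg' t)).continuousAt.continuousWithinAt)
    (fun t _ => ((hg t).sub (hg' t)).hasDerivWithinAt) le_rfl (fun t ht => by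
      refine (hF.norm_sub_le _ _).trans ?_
      rw [← mul_add, sub_sub_sub_comm]
      exact mul_le_mul_of_nonneg_left ((norm_sub_le _ _).trans
        (add_le_add_right (h t (Ico_subset_Icc_self ht)) _)) hK.le) T ⟨hT, le_rfl⟩
  rw [gronwallBound_of_K_ne_0 hK.ne', mul_div_cancel_left₀ _ hK.ne', sub_zero] at h1
  simp only at h1
  linarith

theorem flow0_est2 {F : ℂ → ℂ} {K : ℝ≥0} (hK : 0 < (K : ℝ)) (hF : LipschitzWith K F)
    {U U' g g' : ℝ → ℂ} (hg : ∀ t, HasDerivAt g (F (g t - U t)) t)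
    (hg' : ∀ t, HasDerivAt g' (F (g' t - U' t)) t) {T ε t : ℝ} (ht : |t| ≤ T)
    (h : ∀ s ∈ Icc (-T) T, ‖U s - U' s‖ ≤ ε) :
    ‖g t - g' t‖ ≤ (‖g 0 - g' 0‖ + ε) * Real.exp (K * T) := by
  obtain ⟨h1, h2⟩ := abs_le.1 ht
  have hε : 0 ≤ ε := (norm_nonneg _).trans (h t ⟨h1, h2⟩)
  rcases le_total 0 t with h0 | h0
  · refine (flow0_est hK hF hg hg' h0 fun s hs =>
      h s ⟨by linarith [hs.1], by linarith [hs.2]⟩).trans ?_
    gcongr
  · have r : ∀ {U g : ℝ → ℂ}, (∀ t, HasDerivAt g (F (g t - U t)) t) →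
        ∀ t, HasDerivAt (fun s => g (-s)) (-F (g (-t) - U (-t))) t := fun hg t =>
      ((hg (-t)).scomp t (hasDerivAt_neg t)).congr_deriv (neg_one_smul ℝ _)
    have := flow0_est (F := fun z => -F z) (U := fun s => U (-s)) (U' := fun s => U' (-s))
      (T := -t) hK hF.neg (r hg) (r hg') (by linarith) fun s hs =>
      h (-s) ⟨by linarith [hs.2], by linarith [hs.1]⟩
    simp only [neg_neg, neg_zero] at this
    refine this.trans ?_
    gcongr
    linarith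

theorem flow0 : Flow0Stmt := by
  intro δ σ hδ hσ
  have hF := flow0_lip hδ hσ
  have hK : (0 : ℝ) < (2 / δ ^ 2).toNNReal := by
    rw [Real.coe_toNNReal _ (by positivity)]; positivity
  choose φ h0 hφ using fun (w : ℂ) (W : Pth) => flow0_glob (L := ⟨2 / δ, by positivity⟩) hF
    (flow0_bdd hδ hσ) (U := fun t => (W t : ℂ)) (by fun_prop) w
  refine ⟨φ, continuous_iff_continuousAt.2 ?_, h0, hφ⟩
  rintro ⟨w0, W0, t0⟩
  set T := |t0| + 1 with hT
  have c1 : Continuous fun p : ℂ × Pth × ℝ =>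
      (‖p.1 - w0‖ + ‖p.2.1.restrict (Icc (-T) T) - W0.restrict (Icc (-T) T)‖) *
        Real.exp ((2 / δ ^ 2).toNNReal * T) + ‖φ w0 W0 p.2.2 - φ w0 W0 t0‖ := by
    have := ContinuousMap.continuous_restrict (X := ℝ) (Y := ℝ) (Icc (-T) T)
    have : Continuous (φ w0 W0) := continuous_iff_continuousAt.2 fun t => (hφ w0 W0 t).continuousAt
    fun_prop
  refine tendsto_iff_norm_sub_tendsto_zero.2 (squeeze_zero' (Eventually.of_forall fun _ =>
    norm_nonneg _) ?_ (by simpa using c1.tendsto (w0, W0, t0)))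
  have c2 : Continuous fun p : ℂ × Pth × ℝ => |p.2.2| := by fun_prop
  filter_upwards [c2.continuousAt.eventually_lt continuousAt_const (lt_add_one |t0|)] with p hp
  refine (norm_sub_le_norm_sub_add_norm_sub _ (φ w0 W0 p.2.2) _).trans (add_le_add_left ?_ _)
  have := flow0_est2 hK hF (hφ p.1 p.2.1) (hφ w0 W0) hp.le
    (ε := ‖p.2.1.restrict (Icc (-T) T) - W0.restrict (Icc (-T) T)‖) fun s hs => by
      rw [← Complex.ofReal_sub, Complex.norm_real]
      exact (p.2.1.restrict (Icc (-T) T) - W0.restrict (Icc (-T) T)).norm_coe_le_norm ⟨s, hs⟩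
  rwa [h0, h0] at this

end Vale.Agent.P164
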