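import Vale.Agent.P164.Wien
import Vale.Agent.P164.Cat
import Vale.Agent.P164.Max
import Vale.Agent.P164.Inc
import Vale.Agent.P164.ItoDet
import Vale.Agent.P164.Ito
import Vale.Agent.P164.SmAlg
import Vale.Agent.P164.SmInt
import Vale.Agent.P164.Flow0
import Vale.Agent.P164.FlowC
import Vale.Agent.P164.FlowA
import Vale.Agent.P164.FlowM
import Vale.Agent.P164.ConfA
import Vale.Agent.P164.Surj
import Vale.Agent.P164.ConfB
import Vale.Agent.P164.Dist
import Vale.Agent.P164.Koebe
import Vale.Agent.P164.Schwarz
import Vale.Agent.P164.Base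
import Vale.Agent.P164.LSAlg
import Vale.Agent.P164.Mon
import Vale.Agent.P164.Int
import Vale.Agent.P164.Gauge
import Vale.Agent.P164.Cover
import Vale.Agent.P164.Mass
import Vale.Agent.P164.Curve
import Vale.Agent.P164.HitDP
import Vale.Agent.P164.U
import Vale.Agent.P164.OP
import Vale.Agent.P164.Ly
import Vale.Agent.P164.FMV
import Vale.Agent.P164.ContA
import Vale.Agent.P164.ContB
import Vale.Agent.P164.FM
import Vale.Agent.P164.Q
import Vale.Agent.P164.Kern
import Vale.Agent.P164.N
import Vale.Agent.P164.Tent
import Vale.Agent.P164.NLow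
import Vale.Agent.P164.AB1
import Vale.Agent.P164.AB
import Vale.Agent.P164.Cost
import Vale.Agent.P164.Grad
import Vale.Agent.P164.V
import Vale.Agent.P164.TailPt
import Vale.Agent.P164.TailDr
import Vale.Agent.P164.Tail
import Vale.Agent.P164.Big
import Vale.Agent.P164.Gain
import Vale.Agent.P164.P2
import Vale.Agent.P164.Win
import Vale.Agent.P164.Sweep1
import Vale.Agent.P164.Sweep
import Vale.Agent.P164.Drv
import Vale.Agent.P164.Geo
import Vale.Agent.P164.FillA
import Vale.Agent.P164.Step
import Vale.Agent.P164.FillDet
import Vale.Agent.P164.Fill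
import Vale.Agent.P164.Stage
import Vale.Agent.P164.Trial
import Vale.Agent.P164.FinExp
import Vale.Agent.P164.FinNum
import Vale.Agent.P164.Upper
import Vale.Agent.P164.GoodM
import Vale.Agent.P164.PosDet
import Vale.Agent.P164.BadE
import Vale.Agent.P164.PosProb
import Vale.Agent.P164.Lower
import Vale.Agent.P164.Fin

namespace Vale.Agent.P164

theorem all_flowA : FlowAStmt := flowA flow0 (flowC flow0)
theorem all_flowM : FlowMStmt := flowM flow0 (flowC flow0) all_flowA
theorem all_confA : ConfAStmt := confA all_flowA all_flowM
theorem all_confB : ConfBStmt := confB all_flowA all_flowM all_confA (surj flow0 (flowC flow0))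
theorem all_schwarz : SchwarzStmt := schwarzS all_flowA all_flowM all_confA all_confB
theorem all_base : BaseStmt := base all_flowA all_flowM
theorem all_curve : CurveStmt := curve all_flowA all_flowM all_schwarz

theorem all_fnd : Fnd where
  cat := catS
  max := maxS catS
  ito := ito inc itoDet
  alg := smAlg
  int := smInt
  flow := all_flowA
  meas := all_flowM
  confA := all_confA
  confB := all_confB
  koebe := koebe all_flowA all_confB (dist3 all_flowA all_flowM all_confA all_confB)
  schwarz := all_schwarz
  base := all_base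
  ls := lsAlg smAlg all_base
  lsup := lsup (ito inc itoDet) smInt
  mon := monS all_flowA all_base (lsAlg smAlg all_base)
  elem := intS
  gauge := gaugeS
  cover := cover gaugeS
  mass := mass gaugeS
  hit := hitDP catS all_flowA

theorem all_main : UpperStmt ∧ LowerStmt := by
  have hF := all_fnd
  have hU := uS hF
  have hO := opS hF hU
  have hL := ly hF
  have hLp := lyp hF hL
  have hA := contA hF
  have hB := contB hF hA
  have hM := fm hF hL (fmv hF) hA
  have hN := nS hF (kernS hF (qS hF))
  have hT := tent hF
  have hNL := nlow hF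
  have hAB := abS hF (ab1 hF hNL)
  have hC := cost hF hN hT hAB
  have hG := grad hF hN hT hAB hC
  have hV := vS hF
  have hP := tailPt hF hA hN hT hNL hV
  have hBig := bigS hF hA (tail hF hA (tailDr hF hA hN hV hP hC hG))
  have hGain := gainS hF hA hBig
  have hP2 := p2 hF hA hB hU hBig
  have hFA := fillA hF (sweep hF (sweep1 hF)) drv (geo hF)
  have hFill := fill hF hA (step hF hA hGain) (fillDet hF hA hFA)
  have hTr := trial hF hA hU hO hLp (stage hF hA hLp (win hF) hFill)
  have hGM := goodM hF hA hBig
  exact ⟨upper hF hA hB hM (finExp hF hA hO hTr) (finNum gaugeS),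
    lower hF hM hGM (posDet hF hA hB hBig) (posProb hF hA hGain (badE hF hA hBig hP2) hGM)⟩

end Vale.Agent.P164
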