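import Vale.Agent.P164.Defs

/-! Path space, Wiener measure, Loewner state, the calculus of smooth functionals. -/

open Set MeasureTheory ProbabilityTheory Metric
open scoped ENNReal NNReal

namespace Vale.Agent.P164

/-! ### Path space -/

abbrev Pth := C(ℝ, ℝ)

instance : MeasurableSpace Pth := borel _
instance : BorelSpace Pth := ⟨rfl⟩

/-- Follow `V` up to time `s`, then the increments of `W`. -/
noncomputable def cat (s : ℝ) (V W : Pth) : Pth :=
  ⟨fun t => V (min t s) + (W (max (t - s) 0) - W 0), by fun_prop⟩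

/-- `μ` is the law of a Brownian path of speed `κ`. -/
structure Wie (κ : ℝ) (μ : Measure Pth) : Prop where
  prob : IsProbabilityMeasure μ
  law : ∀ t, 0 ≤ t → μ.map (fun W : Pth => W t - W 0) = gaussianReal 0 (κ * t).toNNReal
  cat : ∀ s, 0 ≤ s → (μ.prod μ).map (fun p : Pth × Pth => cat s p.1 p.2) = μ

/-- Conditional expectation of `F` given that the path follows `V` up to time `s`. -/
noncomputable def CE (μ : Measure Pth) (s : ℝ) (V : Pth) (F : Pth → ℝ≥0∞) : ℝ≥0∞ :=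
  ∫⁻ W, F (cat s V W) ∂μ

/-- Conditional (outer) probability. -/
noncomputable def CP (μ : Measure Pth) (s : ℝ) (V : Pth) (E : Set Pth) : ℝ≥0∞ :=
  μ {W | cat s V W ∈ E}

/-- Nonnegative supermartingale. -/
def Sup (μ : Measure Pth) (N : ℝ → Pth → ℝ≥0∞) : Prop :=
  (∀ t, 0 ≤ t → Measurable (N t)) ∧
    ∀ s t V, 0 ≤ s → 0 ≤ t → CE μ s V (N (s + t)) ≤ N s V

/-- The driver stays within `x` of its value at time `s` during `[s,t]`. -/
def Stay (s t x : ℝ) : Set Pth := {W | ∀ u ∈ Icc s t, |W u - W s| ≤ x}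

/-! ### Loewner state -/

open Classical in
noncomputable def Z0 (W : Pth) (t : ℝ) (w : ℂ) : ℂ :=
  if h : w ∈ dom W t then h.2.choose t - (W t : ℂ) else 0

/-- `g_t(w) - W_t` if `w` is alive at time `t`, else `0` (frozen for `t ≤ 0`). -/
noncomputable def Zf (W : Pth) (t : ℝ) (w : ℂ) : ℂ := Z0 W (max t 0) w

noncomputable def Xf (W : Pth) (t : ℝ) (w : ℂ) : ℝ := (Zf W t w).re
noncomputable def Yf (W : Pth) (t : ℝ) (w : ℂ) : ℝ := (Zf W t w).im
/-- `|Z|`. -/
noncomputable def Rf (W : Pth) (t : ℝ) (w : ℂ) : ℝ := ‖Zf W t w‖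
/-- The sine of the angle of `Z`. -/
noncomputable def Sf (W : Pth) (t : ℝ) (w : ℂ) : ℝ := Yf W t w / Rf W t w

open Classical in
/-- Half the conformal radius `Y / |g'|` if alive, else `0`. -/
noncomputable def Up (W : Pth) (t : ℝ) (w : ℂ) : ℝ :=
  if w ∈ dom W (max t 0) then
    w.im * Real.exp (-∫ u in (0 : ℝ)..(max t 0), 4 * Yf W u w ^ 2 / Rf W u w ^ 4)
  else 0

/-- The spatial derivative `g_t'(w)`. -/
noncomputable def gd (W : Pth) (t : ℝ) (w : ℂ) : ℂ :=
  Complex.exp (-∫ u in (0 : ℝ)..(max t 0), 2 / Zf W u w ^ 2)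

open Classical in
/-- The centred inverse map. -/
noncomputable def fi (W : Pth) (t : ℝ) (ζ : ℂ) : ℂ :=
  if h : ∃ w, w ∈ dom W (max t 0) ∧ Zf W t w = ζ then h.choose else 0

/-- The derivative of the centred inverse map. -/
noncomputable def fd (W : Pth) (t : ℝ) (ζ : ℂ) : ℂ := (gd W t (fi W t ζ))⁻¹

/-- The upper half-plane. -/
def HP : Set ℂ := {z | 0 < z.im}

/-- Regularisation of the height. -/
def reg (δ : ℝ) (z : ℂ) : ℂ := ⟨z.re, max z.im δ⟩

/-- A jointly continuous global flow of the regularised Loewner field. -/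
structure IsFlow (δ σ : ℝ) (φ : ℂ → Pth → ℝ → ℂ) : Prop where
  cont : Continuous fun p : ℂ × Pth × ℝ => φ p.1 p.2.1 p.2.2
  init : ∀ w W, φ w W 0 = w
  der : ∀ w (W : Pth) t, HasDerivAt (φ w W) ((σ : ℂ) * (2 / reg δ (φ w W t - (W t : ℂ)))) t

/-! ### Exponents and monomials -/

noncomputable def dd (κ : ℝ) : ℝ := 1 + κ / 8
noncomputable def rr (κ : ℝ) : ℝ := 8 / κ - 1
noncomputable def pp (κ : ℝ) : ℝ := rr κ - (2 - dd κ)

/-- The monomial `Y ^ a Υ ^ b S ^ q`. -/
noncomputable def Mon (a b q : ℝ) (w : ℂ) (W : Pth) (t : ℝ) : ℝ :=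
  Yf W t w ^ a * Up W t w ^ b * Sf W t w ^ q

noncomputable def cX (κ a q : ℝ) : ℝ := -2 * a + κ * q * (q - rr κ) / 2
noncomputable def cY (κ a b q : ℝ) : ℝ := -2 * a - 4 * b - κ * q / 2

/-- The Green martingale `Υ ^ (d - 2) S ^ r`. -/
noncomputable def MM (κ : ℝ) (w : ℂ) (W : Pth) (t : ℝ) : ℝ :=
  Up W t w ^ (dd κ - 2) * Sf W t w ^ rr κ

/-! ### Cutoffs -/

noncomputable def cut (x : ℝ) : ℝ := Real.smoothTransition (x - 1)
noncomputable def cut1 (x : ℝ) : ℝ := deriv cut x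
noncomputable def cut2 (x : ℝ) : ℝ := deriv cut1 x

/-! ### Content -/

/-- Rate of content without the angle cutoff. -/
noncomputable def crf (κ ε : ℝ) (w : ℂ) (W : Pth) (t : ℝ) : ℝ :=
  MM κ w W t * (cut1 (Up W t w / ε) * (Up W t w / ε) * (4 * Sf W t w ^ 2 / Rf W t w ^ 2))

/-- Rate of content. -/
noncomputable def cr (κ s0 ε : ℝ) (w : ℂ) (W : Pth) (t : ℝ) : ℝ :=
  cut (Sf W t w / s0) * crf κ ε w W t

/-- Content density accumulated during `(a,b]`. -/
noncomputable def den (κ s0 ε a b : ℝ) (W : Pth) (w : ℂ) : ℝ≥0∞ :=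
  ∫⁻ t in Ioc a b, ENNReal.ofReal (cr κ s0 ε w W t)

/-- Content density with a height cutoff. -/
noncomputable def dend (κ s0 ε δ a b : ℝ) (W : Pth) (w : ℂ) : ℝ≥0∞ :=
  ∫⁻ t in Ioc a b, ENNReal.ofReal (cut (Yf W t w / δ) * cr κ s0 ε w W t)

/-- Content measure. -/
noncomputable def cm (κ s0 ε a b : ℝ) (W : Pth) : Measure ℂ :=
  volume.withDensity (den κ s0 ε a b W)

/-- Content measure with a height cutoff. -/
noncomputable def cmd (κ s0 ε δ a b : ℝ) (W : Pth) : Measure ℂ :=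
  volume.withDensity (dend κ s0 ε δ a b W)

/-! ### Smooth functionals -/

/-- A functional of parameter, path, time and position with its derivative fields. -/
structure Fld (α : Type) where
  v : α → Pth → ℝ → ℝ → ℝ
  t : α → Pth → ℝ → ℝ → ℝ
  x : α → Pth → ℝ → ℝ → ℝ
  xx : α → Pth → ℝ → ℝ → ℝ

/-- Measurable, continuous in time and position, locally uniformly bounded. -/
structure Nice {α : Type} [MeasurableSpace α] [Norm α] (f : α → Pth → ℝ → ℝ → ℝ) : Prop where
  meas : Measurable fun p : α × Pth × ℝ × ℝ => f p.1 p.2.1 p.2.2.1 p.2.2.2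
  cont : ∀ a W, ContinuousOn (fun p : ℝ × ℝ => f a W p.1 p.2) (Ici 0 ×ˢ univ)
  bdd : ∀ n : ℝ, ∃ C : ℝ, ∀ a (W : Pth) t ξ, ‖a‖ ≤ n → t ∈ Icc 0 n →
    (∀ u ∈ Icc 0 t, |W u| ≤ n) → |ξ| ≤ n → |f a W t ξ| ≤ C

structure Reg {α : Type} [MeasurableSpace α] [Norm α] (f : Fld α) : Prop where
  nv : Nice f.v
  nt : Nice f.t
  nx : Nice f.x
  nxx : Nice f.xx
  loc : ∀ a (V W : Pth) t ξ, 0 ≤ t → EqOn V W (Icc 0 t) → f.v a V t ξ = f.v a W t ξ
  dt : ∀ a W t ξ, 0 < t → HasDerivAt (fun u => f.v a W u ξ) (f.t a W t ξ) t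
  dx : ∀ a W t ξ, 0 ≤ t → HasDerivAt (f.v a W t) (f.x a W t ξ) ξ
  dxx : ∀ a W t ξ, 0 ≤ t → HasDerivAt (f.x a W t) (f.xx a W t ξ) ξ

/-- `v` is a smooth functional of the path with drift `d` and gradient `g`. -/
def Sm (κ : ℝ) {α : Type} [MeasurableSpace α] [Norm α] (v d g : α → Pth → ℝ → ℝ) : Prop :=
  ∃ f : Fld α, Reg f ∧ ∀ a W t, 0 ≤ t →
    v a W t = f.v a W t (W t) ∧ d a W t = f.t a W t (W t) + κ / 2 * f.xx a W t (W t) ∧
      g a W t = f.x a W t (W t)

/-- The height cutoff. -/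
noncomputable def cy (δ : ℝ) (w : ℂ) (W : Pth) (t : ℝ) : ℝ := cut (Yf W t w / δ)

/-- Minus the drift of the height cutoff. -/
noncomputable def cyd (δ : ℝ) (w : ℂ) (W : Pth) (t : ℝ) : ℝ :=
  cut1 (Yf W t w / δ) * (Yf W t w / δ) * (2 / Rf W t w ^ 2)

/-- One-point functional that is smooth while the point is alive. -/
def LS (κ : ℝ) (v d g : ℂ → Pth → ℝ → ℝ) : Prop :=
  ∀ δ, 0 < δ → Sm κ (fun w W t => cy δ w W t * v w W t)
    (fun w W t => cy δ w W t * d w W t - cyd δ w W t * v w W t)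
    (fun w W t => cy δ w W t * g w W t)

/-! ### Events -/

/-- The conformal radius drops below `ε` by time `b` while the height exceeds `δ`. -/
def Hit (w : ℂ) (ε δ b : ℝ) : Set Pth :=
  {W | ∃ t ∈ Icc 0 b, Up W t w < ε ∧ δ < Yf W t w}

/-- A set containing the trace up to time `b`. -/
def Tr (W : Pth) (b : ℝ) : Set ℂ :=
  {z | 0 ≤ z.im ∧ ∀ (w : ℂ) (e : ℝ), 0 < e → ‖w - z‖ ≤ e → e < w.im →
    ∃ t ∈ Icc 0 b, w ∈ dom W t ∧ ∃ z', z' ∉ dom W t ∧ ‖z' - w‖ ≤ 2 * e}

/-- A set contained in the trace between times `s` and `t`. -/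
def Fr (W : Pth) (s t : ℝ) : Set ℂ :=
  {z | z ∈ dom W s ∧ ∃ u ∈ Icc s t, z ∈ frontier (dom W u)}

/-- The frozen iterated logarithm. -/
noncomputable def LL (r : ℝ) : ℝ := Real.log (Real.log (1 / min r (1 / 16)))

/-- Hausdorff content at scale `δ`. -/
noncomputable def hc (h : ℝ → ℝ) (δ : ℝ) (E : Set ℂ) : ℝ≥0∞ :=
  ⨅ (U : ℕ → Set ℂ) (_ : E ⊆ ⋃ j, U j) (_ : ∀ j, Metric.ediam (U j) ≤ ENNReal.ofReal δ),
      ∑' j, ENNReal.ofReal (h (Metric.diam (U j)))

/-! ### Elementary lemmas -/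

theorem hausd_eq (h : ℝ → ℝ) (E : Set ℂ) : hausd h E = ⨆ (δ : ℝ) (_ : 0 < δ), hc h δ E := rfl

theorem gauge_eq (κ r : ℝ) : gauge κ r = r ^ dd κ * LL r ^ ((2 - dd κ) / 2) := rfl

theorem MM_eq (κ : ℝ) (w : ℂ) (W : Pth) (t : ℝ) :
    MM κ w W t = Mon 0 (dd κ - 2) (rr κ) w W t := by
  simp [MM, Mon]

theorem kappa_rr {κ : ℝ} (h : 0 < κ) : κ * rr κ = 8 - κ := by
  unfold rr; field_simp

theorem rr_pos {κ : ℝ} (h : 0 < κ) (h8 : κ < 8) : 0 < rr κ := by
  unfold rr; rw [sub_pos, one_lt_div h]; exact h8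

theorem one_lt_dd {κ : ℝ} (h : 0 < κ) : 1 < dd κ := by unfold dd; linarith

theorem dd_lt_two {κ : ℝ} (h8 : κ < 8) : dd κ < 2 := by unfold dd; linarith

theorem pp_pos {κ : ℝ} (h : 0 < κ) (h8 : κ < 8) : 0 < pp κ := by
  have : pp κ = (8 - κ) ^ 2 / (8 * κ) := by unfold pp rr dd; field_simp; ring
  rw [this]; have : 0 < 8 - κ := by linarith
  positivity

theorem Yf_le_Rf (W : Pth) (t : ℝ) (w : ℂ) : |Yf W t w| ≤ Rf W t w := Complex.abs_im_le_norm _

theorem Xf_le_Rf (W : Pth) (t : ℝ) (w : ℂ) : |Xf W t w| ≤ Rf W t w := Complex.abs_re_le_norm _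

theorem Rf_nonneg (W : Pth) (t : ℝ) (w : ℂ) : 0 ≤ Rf W t w := norm_nonneg _

theorem Rf_sq (W : Pth) (t : ℝ) (w : ℂ) : Rf W t w ^ 2 = Xf W t w ^ 2 + Yf W t w ^ 2 := by
  unfold Rf Xf Yf; rw [Complex.sq_norm, Complex.normSq_apply]; ring

theorem Sf_le_one (W : Pth) (t : ℝ) (w : ℂ) : Sf W t w ≤ 1 := by
  unfold Sf
  exact div_le_one_of_le₀ ((le_abs_self _).trans (Yf_le_Rf W t w)) (Rf_nonneg W t w)

theorem Up_nonneg (W : Pth) (t : ℝ) (w : ℂ) : 0 ≤ Up W t w := by
  unfold Up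
  split_ifs with h
  · exact mul_nonneg h.1.le (Real.exp_pos _).le
  · exact le_rfl

theorem mem_dom_of_Up_pos {W : Pth} {t : ℝ} {w : ℂ} (ht : 0 ≤ t) (h : 0 < Up W t w) :
    w ∈ dom W t := by
  by_contra hn
  unfold Up at h
  rw [max_eq_left ht, if_neg hn] at h
  exact lt_irrefl _ h

theorem Up_pos {W : Pth} {t : ℝ} {w : ℂ} (ht : 0 ≤ t) (h : w ∈ dom W t) : 0 < Up W t w := by
  unfold Up
  rw [max_eq_left ht, if_pos h]
  exact mul_pos h.1 (Real.exp_pos _)

theorem Zf_dead {W : Pth} {t : ℝ} {w : ℂ} (ht : 0 ≤ t) (h : w ∉ dom W t) : Zf W t w = 0 := by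
  unfold Zf Z0
  rw [max_eq_left ht, dif_neg h]

theorem Zf_spec {W : Pth} {t : ℝ} {w : ℂ} (ht : 0 ≤ t) (h : w ∈ dom W t) :
    ∃ g, Solves W w t g ∧ Zf W t w = g t - (W t : ℂ) := by
  refine ⟨h.2.choose, h.2.choose_spec, ?_⟩
  unfold Zf
  rw [max_eq_left ht]
  unfold Z0
  rw [dif_pos h]

theorem Zf_max (W : Pth) (t : ℝ) (w : ℂ) : Zf W (max t 0) w = Zf W t w := by
  have e : max (max t 0) 0 = max t 0 := max_eq_left (le_max_right _ _)
  unfold Zf
  rw [e]

theorem Up_max (W : Pth) (t : ℝ) (w : ℂ) : Up W (max t 0) w = Up W t w := by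
  have e : max (max t 0) 0 = max t 0 := max_eq_left (le_max_right _ _)
  unfold Up
  rw [e]

theorem gd_max (W : Pth) (t : ℝ) (w : ℂ) : gd W (max t 0) w = gd W t w := by
  have e : max (max t 0) 0 = max t 0 := max_eq_left (le_max_right _ _)
  unfold gd
  rw [e]

theorem fi_spec {W : Pth} {t : ℝ} {ζ : ℂ} (ht : 0 ≤ t) (h : ∃ w, w ∈ dom W t ∧ Zf W t w = ζ) :
    fi W t ζ ∈ dom W t ∧ Zf W t (fi W t ζ) = ζ := by
  have h' : ∃ w, w ∈ dom W (max t 0) ∧ Zf W t w = ζ := by rwa [max_eq_left ht]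
  have := h'.choose_spec
  have e : fi W t ζ = h'.choose := by unfold fi; rw [dif_pos h']
  rw [e]
  exact ⟨by simpa only [max_eq_left ht] using this.1, this.2⟩

theorem Up_dead {W : Pth} {t : ℝ} {w : ℂ} (ht : 0 ≤ t) (h : w ∉ dom W t) : Up W t w = 0 := by
  unfold Up
  rw [max_eq_left ht, if_neg h]


theorem cat_apply (s : ℝ) (V W : Pth) (t : ℝ) :
    cat s V W t = V (min t s) + (W (max (t - s) 0) - W 0) := rfl

theorem cat_of_le {s t : ℝ} (V W : Pth) (h : t ≤ s) : cat s V W t = V t := by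
  rw [cat_apply, min_eq_left h, max_eq_right (by linarith)]; ring

theorem cat_add {s u : ℝ} (V W : Pth) (h : 0 ≤ u) :
    cat s V W (s + u) = V s + (W u - W 0) := by
  rw [cat_apply, min_eq_right (by linarith), add_sub_cancel_left, max_eq_left h]

theorem cat_eqOn (s : ℝ) (V W : Pth) : EqOn (cat s V W) V (Icc 0 s) :=
  fun _ ht => cat_of_le V W ht.2

theorem cat_cat {s u : ℝ} (hu : 0 ≤ u) (V V' W : Pth) :
    cat s V (cat u V' W) = cat (s + u) (cat s V V') W := by
  ext t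
  have h0 : cat u V' W 0 = V' 0 := cat_of_le V' W hu
  simp only [cat_apply] at h0 ⊢
  have e1 : min (min t (s + u)) s = min t s := by
    rw [min_assoc, min_eq_right (by linarith : s ≤ s + u)]
  have e2 : max (min t (s + u) - s) 0 = min (max (t - s) 0) u := by
    rcases le_total t s with h | h <;> rcases le_total t (s + u) with h' | h' <;>
      simp only [min_def, max_def] <;> split_ifs <;> linarith
  have e3 : max (max (t - s) 0 - u) 0 = max (t - (s + u)) 0 := by
    simp only [max_def]; split_ifs <;> linarith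
  rw [e1, e2, e3, h0]; ring

theorem continuous_cat : Continuous fun p : ℝ × Pth × Pth => cat p.1 p.2.1 p.2.2 := by
  refine ContinuousMap.continuous_of_continuous_uncurry _ ?_
  simp only [Function.uncurry_def, cat_apply]
  fun_prop

theorem measurable_cat (s : ℝ) : Measurable fun p : Pth × Pth => cat s p.1 p.2 :=
  (continuous_cat.comp (Continuous.prodMk_right s)).measurable

theorem measurable_cat_right (s : ℝ) (V : Pth) : Measurable (cat s V) :=
  (measurable_cat s).comp (measurable_const.prodMk measurable_id)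

theorem measurable_ev (t : ℝ) : Measurable fun W : Pth => W t :=
  (ContinuousEvalConst.continuous_eval_const t).measurable

theorem measurable_ev2 : Measurable fun p : Pth × ℝ => p.1 p.2 :=
  (ContinuousEval.continuous_eval (F := Pth)).measurable

/-- A map into path space is measurable as soon as its values at rational times are. -/
theorem measurable_pth {Ω : Type*} [MeasurableSpace Ω] {f : Ω → Pth}
    (h : ∀ q : ℚ, Measurable fun ω => f ω q) : Measurable f := by
  let e : Pth → ℚ → ℝ := fun W q => W q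
  have hc : Continuous e := continuous_pi fun q => ContinuousEvalConst.continuous_eval_const _
  have hi : Function.Injective e := by
    intro V W hVW
    ext t
    have : (V : ℝ → ℝ) = W :=
      Rat.denseRange_cast.equalizer V.continuous W.continuous (funext fun q => congrFun hVW q)
    exact congrFun this t
  have hm : MeasurableEmbedding e := hc.measurableEmbedding hi
  exact hm.measurable_comp_iff.1 (measurable_pi_lambda _ h)

theorem contDiff_cut {n : ℕ∞} : ContDiff ℝ n cut :=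
  Real.smoothTransition.contDiff.comp (contDiff_id.sub contDiff_const)

theorem contDiff_cut1 {n : ℕ∞} : ContDiff ℝ n cut1 := by
  have : ContDiff ℝ (n + 1 : ℕ∞) cut := contDiff_cut
  exact (contDiff_succ_iff_deriv.1 (by simpa using this)).2.2

theorem contDiff_cut2 {n : ℕ∞} : ContDiff ℝ n cut2 := by
  have : ContDiff ℝ (n + 1 : ℕ∞) cut1 := contDiff_cut1
  exact (contDiff_succ_iff_deriv.1 (by simpa using this)).2.2

theorem hasDerivAt_cut (x : ℝ) : HasDerivAt cut (cut1 x) x :=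
  ((contDiff_cut (n := 1)).differentiable (by simp) x).hasDerivAt

theorem hasDerivAt_cut1 (x : ℝ) : HasDerivAt cut1 (cut2 x) x :=
  ((contDiff_cut1 (n := 1)).differentiable (by simp) x).hasDerivAt

theorem continuous_cut : Continuous cut := (contDiff_cut (n := 0)).continuous
theorem continuous_cut1 : Continuous cut1 := (contDiff_cut1 (n := 0)).continuous
theorem continuous_cut2 : Continuous cut2 := (contDiff_cut2 (n := 0)).continuous

theorem cut_nonneg (x : ℝ) : 0 ≤ cut x := Real.smoothTransition.nonneg _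
theorem cut_le_one (x : ℝ) : cut x ≤ 1 := Real.smoothTransition.le_one _
theorem cut_zero {x : ℝ} (h : x ≤ 1) : cut x = 0 :=
  Real.smoothTransition.zero_of_nonpos (by linarith)
theorem cut_one {x : ℝ} (h : 2 ≤ x) : cut x = 1 :=
  Real.smoothTransition.one_of_one_le (by linarith)
theorem cut_mono : Monotone cut :=
  fun _ _ h => Real.smoothTransition.monotone (by linarith)
theorem cut1_nonneg (x : ℝ) : 0 ≤ cut1 x := cut_mono.deriv_nonneg

theorem cut1_zero_left {x : ℝ} (h : x ≤ 1) : cut1 x = 0 := by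
  have hc : IsClosed {x | cut1 x = 0} := isClosed_eq continuous_cut1 continuous_const
  have : Iio (1 : ℝ) ⊆ {x | cut1 x = 0} := by
    intro y hy
    have : cut =ᶠ[nhds y] fun _ => 0 := by
      filter_upwards [Iio_mem_nhds hy] with z hz using cut_zero (le_of_lt hz)
    simp [cut1, this.deriv_eq]
  have h2 := hc.closure_subset_iff.2 this
  rw [closure_Iio] at h2
  exact h2 h

theorem cut1_zero_right {x : ℝ} (h : 2 ≤ x) : cut1 x = 0 := by
  have hc : IsClosed {x | cut1 x = 0} := isClosed_eq continuous_cut1 continuous_const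
  have : Ioi (2 : ℝ) ⊆ {x | cut1 x = 0} := by
    intro y hy
    have : cut =ᶠ[nhds y] fun _ => 1 := by
      filter_upwards [Ioi_mem_nhds hy] with z hz using cut_one (le_of_lt hz)
    simp [cut1, this.deriv_eq]
  have h2 := hc.closure_subset_iff.2 this
  rw [closure_Ioi] at h2
  exact h2 h

theorem cut2_zero_left {x : ℝ} (h : x ≤ 1) : cut2 x = 0 := by
  have hc : IsClosed {x | cut2 x = 0} := isClosed_eq continuous_cut2 continuous_const
  have : Iio (1 : ℝ) ⊆ {x | cut2 x = 0} := by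
    intro y hy
    have : cut1 =ᶠ[nhds y] fun _ => 0 := by
      filter_upwards [Iio_mem_nhds hy] with z hz using cut1_zero_left (le_of_lt hz)
    simp [cut2, this.deriv_eq]
  have h2 := hc.closure_subset_iff.2 this
  rw [closure_Iio] at h2
  exact h2 h

theorem cut2_zero_right {x : ℝ} (h : 2 ≤ x) : cut2 x = 0 := by
  have hc : IsClosed {x | cut2 x = 0} := isClosed_eq continuous_cut2 continuous_const
  have : Ioi (2 : ℝ) ⊆ {x | cut2 x = 0} := by
    intro y hy
    have : cut1 =ᶠ[nhds y] fun _ => 0 := by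
      filter_upwards [Ioi_mem_nhds hy] with z hz using cut1_zero_right (le_of_lt hz)
    simp [cut2, this.deriv_eq]
  have h2 := hc.closure_subset_iff.2 this
  rw [closure_Ioi] at h2
  exact h2 h

theorem cut_bounds : ∃ K : ℝ, 1 ≤ K ∧ (∀ x, cut1 x ≤ K) ∧ ∀ x, |cut2 x| ≤ K := by
  obtain ⟨K1, h1⟩ := (isCompact_Icc (a := (1 : ℝ)) (b := 2)).exists_bound_of_continuousOn
    continuous_cut1.continuousOn
  obtain ⟨K2, h2⟩ := (isCompact_Icc (a := (1 : ℝ)) (b := 2)).exists_bound_of_continuousOn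
    continuous_cut2.continuousOn
  refine ⟨max 1 (max K1 K2), le_max_left _ _, fun x => ?_, fun x => ?_⟩
  · rcases le_total x 1 with h | h
    · rw [cut1_zero_left h]; positivity
    rcases le_total 2 x with h' | h'
    · rw [cut1_zero_right h']; positivity
    have := h1 x ⟨h, h'⟩
    rw [Real.norm_eq_abs] at this
    exact (le_abs_self _).trans (this.trans ((le_max_left _ _).trans (le_max_right _ _)))
  · rcases le_total x 1 with h | h
    · rw [cut2_zero_left h]; simp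
    rcases le_total 2 x with h' | h'
    · rw [cut2_zero_right h']; simp
    have := h2 x ⟨h, h'⟩
    rw [Real.norm_eq_abs] at this
    exact this.trans ((le_max_right _ _).trans (le_max_right _ _))

end Vale.Agent.P164
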